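import Mathlib

namespace Vale.Agent.Results.P047.ConicalJuntaBound

open Finset

variable {n : ℕ}

/-- The sign in `{1, -1}` of a bit: `false ↦ 1`, `true ↦ -1`. -/
def sg (b : Bool) : ℝ := if b then -1 else 1

/-- The character `chi S x = ∏ i ∈ S, x_i` of the cube, a point `x` of `{-1,1}^n` being coded by its bits. -/
def chi (S : Finset (Fin n)) (x : Fin n → Bool) : ℝ := ∏ i ∈ S, sg (x i)

/-- The Fourier coefficient `E[f(X) ∏ i ∈ S, X_i]`, `X` uniform on the cube. -/
noncomputable def fourier (f : (Fin n → Bool) → ℝ) (S : Finset (Fin n)) : ℝ :=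
  (∑ x, f x * chi S x) / 2 ^ n

/-- The indicator function of the subcube `{x : x i = v i for every i ∈ D}` coded by the pair
`t = (D, v)`; its codimension is `D.card`. -/
def ind (t : Finset (Fin n) × (Fin n → Bool)) (x : Fin n → Bool) : ℝ :=
  ∏ i ∈ t.1, if x i = t.2 i then 1 else 0

lemma prod_sum_bool (h : Fin n → Bool → ℝ) :
    ∑ x : Fin n → Bool, ∏ i, h i (x i) = ∏ i, (h i true + h i false) := by
  have := Finset.prod_univ_sum (fun (_ : Fin n) => (Finset.univ : Finset Bool)) h
  rw [Fintype.piFinset_univ] at this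
  rw [← this]
  apply Finset.prod_congr rfl
  intro i _
  simp

lemma ind_eq (t : Finset (Fin n) × (Fin n → Bool)) (x : Fin n → Bool) :
    ind t x = ∏ i, (if i ∈ t.1 then (if x i = t.2 i then (1 : ℝ) else 0) else 1) := by
  unfold ind
  rw [Finset.prod_ite_mem, Finset.univ_inter]

lemma sum_weight_ind (q : Fin n → Bool → ℝ) (t : Finset (Fin n) × (Fin n → Bool)) :
    ∑ x : Fin n → Bool, (∏ i, q i (x i)) * ind t x
      = ∏ i, (if i ∈ t.1 then q i (t.2 i) else q i true + q i false) := by
  have h1 : ∀ x : Fin n → Bool, (∏ i, q i (x i)) * ind t x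
      = ∏ i, (q i (x i) * (if i ∈ t.1 then (if x i = t.2 i then (1 : ℝ) else 0) else 1)) := by
    intro x
    rw [ind_eq, Finset.prod_mul_distrib]
  simp_rw [h1]
  rw [prod_sum_bool (fun i b => q i b * (if i ∈ t.1 then (if b = t.2 i then (1 : ℝ) else 0) else 1))]
  apply Finset.prod_congr rfl
  intro i _
  by_cases hi : i ∈ t.1
  · simp only [hi, if_true]
    cases h : t.2 i <;> simp
  · simp [hi]

lemma sum_ind_sg (t : Finset (Fin n) × (Fin n → Bool)) (j : Fin n) :
    ∑ x : Fin n → Bool, ind t x * sg (x j)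
      = if j ∈ t.1 then sg (t.2 j) * 2 ^ (n - t.1.card) else 0 := by
  have h1 : ∀ x : Fin n → Bool, ind t x * sg (x j)
      = (∏ i, (if i = j then sg (x i) else 1)) * ind t x := by
    intro x
    rw [Finset.prod_ite_eq' Finset.univ j (fun i => sg (x i))]
    simp [mul_comm]
  simp_rw [h1]
  rw [sum_weight_ind (fun i b => if i = j then sg b else 1)]
  split_ifs with hj
  · rw [← Finset.prod_mul_prod_compl t.1]
    have hA : ∏ i ∈ t.1, (if i ∈ t.1 then (if i = j then sg (t.2 i) else 1)
        else ((if i = j then sg true else 1) + (if i = j then sg false else 1))) = sg (t.2 j) := by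
      have : ∀ i ∈ t.1, (if i ∈ t.1 then (if i = j then sg (t.2 i) else 1)
          else ((if i = j then sg true else 1) + (if i = j then sg false else 1)))
          = if i = j then sg (t.2 i) else 1 := by
        intro i hi
        rw [if_pos hi]
      rw [Finset.prod_congr rfl this, Finset.prod_ite_eq' t.1 j (fun i => sg (t.2 i)), if_pos hj]
    have hB : ∏ i ∈ t.1ᶜ, (if i ∈ t.1 then (if i = j then sg (t.2 i) else 1)
        else ((if i = j then sg true else 1) + (if i = j then sg false else 1)))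
        = 2 ^ (n - t.1.card) := by
      have : ∀ i ∈ t.1ᶜ, (if i ∈ t.1 then (if i = j then sg (t.2 i) else 1)
          else ((if i = j then sg true else 1) + (if i = j then sg false else 1))) = (2 : ℝ) := by
        intro i hi
        have hi' : i ∉ t.1 := Finset.mem_compl.mp hi
        have hij : i ≠ j := fun h => hi' (h ▸ hj)
        rw [if_neg hi', if_neg hij, if_neg hij]
        norm_num
      rw [Finset.prod_congr rfl this, Finset.prod_const, Finset.card_compl, Fintype.card_fin]
    rw [hA, hB]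
  · apply Finset.prod_eq_zero (Finset.mem_univ j)
    simp [hj, sg]

lemma sum_nu (e : ℝ) (s : Fin n → ℝ) :
    ∑ x : Fin n → Bool, ∏ i, ((1 + e * s i * sg (x i)) / 2) = 1 := by
  rw [prod_sum_bool (fun i b => (1 + e * s i * sg b) / 2)]
  apply Finset.prod_eq_one
  intro i _
  simp only [sg]
  simp
  ring

lemma sum_nu_ind (e : ℝ) (s : Fin n → ℝ) (t : Finset (Fin n) × (Fin n → Bool)) :
    ∑ x : Fin n → Bool, (∏ i, ((1 + e * s i * sg (x i)) / 2)) * ind t x
      = ∏ i ∈ t.1, ((1 + e * s i * sg (t.2 i)) / 2) := by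
  rw [sum_weight_ind (fun i b => (1 + e * s i * sg b) / 2)]
  have : ∀ i : Fin n, (if i ∈ t.1 then (1 + e * s i * sg (t.2 i)) / 2
      else (1 + e * s i * sg true) / 2 + (1 + e * s i * sg false) / 2)
      = if i ∈ t.1 then (1 + e * s i * sg (t.2 i)) / 2 else 1 := by
    intro i
    split_ifs
    · rfl
    · simp only [sg]
      simp
      ring
  simp_rw [this]
  rw [Finset.prod_ite_mem, Finset.univ_inter]

lemma key_num (w a b : ℕ) (hw : 1 ≤ w) (hab : a + b ≤ w) :
    2 * ((a : ℝ) - b) ≤ 2 * Real.exp (-1/2) * (Real.sqrt w + 1) *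
      ((1 + 1 / Real.sqrt w) ^ a * (1 - 1 / Real.sqrt w) ^ b) := by
  set r := Real.sqrt w with hrdef
  have hw1 : (1 : ℝ) ≤ w := by exact_mod_cast hw
  have hr1 : 1 ≤ r := by
    rw [hrdef]; exact Real.one_le_sqrt.mpr hw1
  have hrr : r * r = w := Real.mul_self_sqrt (by linarith)
  have hr0 : 0 < r := by linarith
  have hε1 : 1 / r ≤ 1 := by
    rw [div_le_one hr0]; exact hr1
  have hε0 : 0 < 1 / r := by positivity
  by_cases h : a ≤ b
  · have h1 : 2 * ((a : ℝ) - b) ≤ 0 := by
      have : (a : ℝ) ≤ b := by exact_mod_cast h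
      linarith
    have h2 : 0 ≤ 2 * Real.exp (-1/2) * (r + 1) * ((1 + 1 / r) ^ a * (1 - 1 / r) ^ b) := by
      have : 0 ≤ 1 - 1 / r := by linarith
      positivity
    linarith
  · push Not at h
    obtain ⟨k, hk⟩ := Nat.exists_eq_add_of_lt h
    set s := k + 1 with hs
    have ha : a = b + s := by omega
    have hs1 : (1 : ℝ) ≤ s := by
      have : 1 ≤ s := by omega
      exact_mod_cast this
    have hprod : (1 + 1 / r) ^ a * (1 - 1 / r) ^ b = (1 + 1 / r) ^ s * (1 - 1 / (w : ℝ)) ^ b := by
      rw [ha, pow_add]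
      have : (1 + 1 / r) * (1 - 1 / r) = 1 - 1 / (w : ℝ) := by
        rw [← hrr]; field_simp; ring
      rw [← this, mul_pow]; ring
    have c1 : Real.exp (-1/2) ≤ (1 - 1 / (w : ℝ)) ^ b := by
      rcases Nat.lt_or_ge w 2 with hw2 | hw2
      · have hb : b = 0 := by omega
        rw [hb, pow_zero]
        have : Real.exp (-1/2) ≤ Real.exp 0 := Real.exp_le_exp.mpr (by norm_num)
        simpa using this
      · have hw2' : (2 : ℝ) ≤ w := by exact_mod_cast hw2
        set m : ℝ := (w : ℝ) - 1 with hm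
        have hm0 : 0 < m := by linarith
        have hbase : Real.exp (-(1 / m)) ≤ 1 - 1 / (w : ℝ) := by
          have h1 := Real.add_one_le_exp (1 / m)
          have hweq : (w : ℝ) = m + 1 := by rw [hm]; ring
          have hm1 : m + 1 ≠ 0 := by linarith
          have h2 : 1 - 1 / (w : ℝ) = 1 / (1 / m + 1) := by
            rw [hweq]; field_simp; ring
          rw [h2, Real.exp_neg, ← one_div]
          apply one_div_le_one_div_of_le (by positivity) h1
        have hb2 : 2 * (b : ℝ) ≤ m := by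
          have : 2 * b + 1 ≤ w := by omega
          have : (2 * b + 1 : ℝ) ≤ w := by exact_mod_cast this
          rw [hm]; linarith
        calc Real.exp (-1/2) ≤ Real.exp ((b : ℝ) * (-(1 / m))) := by
              apply Real.exp_le_exp.mpr
              have : (b : ℝ) * (1 / m) ≤ 1 / 2 := by
                rw [mul_one_div, div_le_iff₀ hm0]; linarith
              linarith
          _ = Real.exp (-(1 / m)) ^ b := by rw [Real.exp_nat_mul]
          _ ≤ (1 - 1 / (w : ℝ)) ^ b := pow_le_pow_left₀ (Real.exp_pos _).le hbase b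
    have c2 : Real.exp 1 * s / (r + 1) ≤ (1 + 1 / r) ^ s := by
      set u : ℝ := 1 / (r + 1) with hu
      have hu0 : 0 < u := by positivity
      have hu1 : 1 - u = r / (r + 1) := by rw [hu]; field_simp; ring
      have h1u : 0 < 1 - u := by rw [hu1]; positivity
      have hexp : Real.exp u ≤ 1 + 1 / r := by
        have h1 := Real.add_one_le_exp (-u)
        have h2 : Real.exp u * (1 - u) ≤ 1 := by
          calc Real.exp u * (1 - u) ≤ Real.exp u * Real.exp (-u) := by
                apply mul_le_mul_of_nonneg_left _ (Real.exp_pos _).le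
                linarith
            _ = 1 := by rw [← Real.exp_add]; simp
        have h3 : 1 + 1 / r = 1 / (1 - u) := by rw [hu1]; field_simp
        rw [h3, le_div_iff₀ h1u]; exact h2
      have h4 : Real.exp 1 * ((s : ℝ) * u) ≤ Real.exp ((s : ℝ) * u) := by
        have h5 := Real.add_one_le_exp ((s : ℝ) * u - 1)
        have h6 : Real.exp ((s : ℝ) * u - 1) = Real.exp ((s : ℝ) * u) / Real.exp 1 := by
          rw [Real.exp_sub]
        rw [h6, le_div_iff₀ (Real.exp_pos 1)] at h5
        linarith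
      calc Real.exp 1 * s / (r + 1) = Real.exp 1 * ((s : ℝ) * u) := by rw [hu]; ring
        _ ≤ Real.exp ((s : ℝ) * u) := h4
        _ = Real.exp u ^ s := by rw [Real.exp_nat_mul]
        _ ≤ (1 + 1 / r) ^ s := pow_le_pow_left₀ (Real.exp_pos _).le hexp s
    rw [hprod]
    have hcast : (a : ℝ) - b = s := by rw [ha]; push_cast; ring
    rw [hcast]
    have hr10 : 0 < r + 1 := by linarith
    have he : Real.exp (-1/2) * Real.exp 1 * Real.exp (-1/2) = 1 := by
      rw [← Real.exp_add, ← Real.exp_add]; norm_num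
    have hpos1 : 0 ≤ Real.exp 1 * s / (r + 1) := by positivity
    have hpos2 : 0 ≤ Real.exp (-1/2) := (Real.exp_pos _).le
    have h7 : 2 * Real.exp (-1/2) * (r + 1) * (Real.exp 1 * s / (r + 1) * Real.exp (-1/2))
        = 2 * s * (Real.exp (-1/2) * Real.exp 1 * Real.exp (-1/2)) := by
      field_simp
    calc 2 * (s : ℝ) = 2 * Real.exp (-1/2) * (r + 1) * (Real.exp 1 * s / (r + 1) * Real.exp (-1/2)) := by
          rw [h7, he]; ring
      _ ≤ 2 * Real.exp (-1/2) * (r + 1) * ((1 + 1 / r) ^ s * (1 - 1 / (w : ℝ)) ^ b) := by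
          apply mul_le_mul_of_nonneg_left _ (by positivity)
          exact mul_le_mul c2 c1 hpos2 (le_trans hpos1 c2)

open Classical in
lemma key (w : ℕ) (hw : 1 ≤ w) (D : Finset (Fin n)) (hD : D.card ≤ w) (τ : Fin n → ℝ)
    (hτ : ∀ i, τ i = 1 ∨ τ i = -1) :
    2 * ∑ i ∈ D, τ i ≤ 2 * Real.exp (-1/2) * (Real.sqrt w + 1) *
      ∏ i ∈ D, (1 + 1 / Real.sqrt w * τ i) := by
  have hsum : ∑ i ∈ D, τ i = ((D.filter (fun i => τ i = 1)).card : ℝ)
      - ((D.filter (fun i => ¬ τ i = 1)).card : ℝ) := by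
    rw [← Finset.sum_filter_add_sum_filter_not D (fun i => τ i = 1) τ]
    have h1 : ∑ i ∈ D.filter (fun i => τ i = 1), τ i = ((D.filter (fun i => τ i = 1)).card : ℝ) := by
      rw [Finset.sum_congr rfl (fun i hi => (Finset.mem_filter.mp hi).2)]
      simp
    have h2 : ∑ i ∈ D.filter (fun i => ¬ τ i = 1), τ i
        = -((D.filter (fun i => ¬ τ i = 1)).card : ℝ) := by
      have : ∀ i ∈ D.filter (fun i => ¬ τ i = 1), τ i = -1 := by
        intro i hi
        rcases hτ i with h | h
        · exact absurd h (Finset.mem_filter.mp hi).2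
        · exact h
      rw [Finset.sum_congr rfl this]
      simp
    rw [h1, h2]; ring
  have hprod : ∏ i ∈ D, (1 + 1 / Real.sqrt w * τ i)
      = (1 + 1 / Real.sqrt w) ^ (D.filter (fun i => τ i = 1)).card
        * (1 - 1 / Real.sqrt w) ^ (D.filter (fun i => ¬ τ i = 1)).card := by
    rw [← Finset.prod_filter_mul_prod_filter_not D (fun i => τ i = 1)]
    have h1 : ∏ i ∈ D.filter (fun i => τ i = 1), (1 + 1 / Real.sqrt w * τ i)
        = (1 + 1 / Real.sqrt w) ^ (D.filter (fun i => τ i = 1)).card := by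
      have : ∀ i ∈ D.filter (fun i => τ i = 1), (1 + 1 / Real.sqrt w * τ i) = 1 + 1 / Real.sqrt w := by
        intro i hi
        rw [(Finset.mem_filter.mp hi).2, mul_one]
      rw [Finset.prod_congr rfl this, Finset.prod_const]
    have h2 : ∏ i ∈ D.filter (fun i => ¬ τ i = 1), (1 + 1 / Real.sqrt w * τ i)
        = (1 - 1 / Real.sqrt w) ^ (D.filter (fun i => ¬ τ i = 1)).card := by
      have : ∀ i ∈ D.filter (fun i => ¬ τ i = 1), (1 + 1 / Real.sqrt w * τ i) = 1 - 1 / Real.sqrt w := by
        intro i hi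
        rcases hτ i with h | h
        · exact absurd h (Finset.mem_filter.mp hi).2
        · rw [h]; ring
      rw [Finset.prod_congr rfl this, Finset.prod_const]
    rw [h1, h2]
  rw [hsum, hprod]
  apply key_num w _ _ hw
  have := Finset.card_filter_add_card_filter_not (s := D) (fun i => τ i = 1)
  omega

/-- Main theorem. -/
theorem result (n w : ℕ) (hw : 1 ≤ w) (f : (Fin n → Bool) → ℝ) (hf : ∀ x, |f x| ≤ 1)
    (c : ℝ) (hc : c = 1 ∨ c = -1)
    (T : Finset (Finset (Fin n) × (Fin n → Bool)))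
    (coef : Finset (Fin n) × (Fin n → Bool) → ℝ)
    (hcoef : ∀ t ∈ T, 0 ≤ coef t)
    (hwidth : ∀ t ∈ T, t.1.card ≤ w)
    (hrep : ∀ x, ∑ t ∈ T, coef t * ind t x = (1 + c * f x) / 2) :
    ∑ i, |fourier f {i}| ≤ 2 * Real.exp (-1/2) * (Real.sqrt w + 1) := by
  classical
  have hcc : c * c = 1 := by rcases hc with h | h <;> rw [h] <;> norm_num
  have hfx : ∀ x, f x = c * (2 * ∑ t ∈ T, coef t * ind t x - 1) := by
    intro x
    rw [hrep x]
    have : c * (2 * ((1 + c * f x) / 2) - 1) = (c * c) * f x := by ring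
    rw [this, hcc, one_mul]
  have hsg0 : ∀ j : Fin n, ∑ x : Fin n → Bool, sg (x j) = 0 := by
    intro j
    have := sum_ind_sg ((∅ : Finset (Fin n)), fun _ => false) j
    simpa [ind] using this
  have hfour : ∀ j : Fin n, fourier f {j}
      = ∑ t ∈ T, coef t * (if j ∈ t.1 then 2 * c * sg (t.2 j) * (1 / 2) ^ t.1.card else 0) := by
    intro j
    unfold fourier
    have h1 : ∀ x : Fin n → Bool, f x * chi {j} x
        = 2 * c * ∑ t ∈ T, coef t * (ind t x * sg (x j)) - c * sg (x j) := by
      intro x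
      have h2 : (∑ t ∈ T, coef t * ind t x) * sg (x j) = ∑ t ∈ T, coef t * (ind t x * sg (x j)) := by
        rw [Finset.sum_mul]
        apply Finset.sum_congr rfl
        intro t _
        ring
      rw [← h2, hfx x]
      unfold chi
      rw [Finset.prod_singleton]
      ring
    simp_rw [h1]
    rw [Finset.sum_sub_distrib, ← Finset.mul_sum, ← Finset.mul_sum, hsg0 j, Finset.sum_comm]
    simp_rw [← Finset.mul_sum, sum_ind_sg]
    rw [mul_zero, sub_zero, Finset.mul_sum, Finset.sum_div]
    apply Finset.sum_congr rfl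
    intro t _
    split_ifs with hj
    · have hcard : t.1.card ≤ n := by simpa using Finset.card_le_univ t.1
      rw [pow_sub₀ (2 : ℝ) (by norm_num) hcard]
      have h2n : (2 : ℝ) ^ n ≠ 0 := by positivity
      have h2k : (2 : ℝ) ^ t.1.card ≠ 0 := by positivity
      rw [one_div, inv_pow]
      field_simp
    · simp
  -- signs
  set σ : Fin n → ℝ := fun j => if 0 ≤ fourier f {j} then 1 else -1 with hσ
  have hσ1 : ∀ j, σ j = 1 ∨ σ j = -1 := by
    intro j
    simp only [hσ]
    split_ifs
    · left; rfl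
    · right; rfl
  have habs : ∀ j, |fourier f {j}| = σ j * fourier f {j} := by
    intro j
    simp only [hσ]
    split_ifs with h
    · rw [abs_of_nonneg h, one_mul]
    · push Not at h
      rw [abs_of_neg h]; ring
  set s : Fin n → ℝ := fun j => c * σ j with hs
  have hs1 : ∀ j, s j = 1 ∨ s j = -1 := by
    intro j
    simp only [hs]
    rcases hc with h | h <;> rcases hσ1 j with h' | h' <;> rw [h, h'] <;> norm_num
  set e : ℝ := 1 / Real.sqrt w with he
  have hw1 : (1 : ℝ) ≤ w := by exact_mod_cast hw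
  have hr1 : 1 ≤ Real.sqrt w := Real.one_le_sqrt.mpr hw1
  have he0 : 0 ≤ e := by rw [he]; positivity
  have he1 : e ≤ 1 := by
    rw [he, div_le_one (by linarith)]; exact hr1
  set lam : ℝ := 2 * Real.exp (-1/2) * (Real.sqrt w + 1) with hlam
  have hlam0 : 0 ≤ lam := by rw [hlam]; positivity
  -- rewrite the left side as a sum over terms
  have hL : ∑ j, |fourier f {j}|
      = ∑ t ∈ T, coef t * ((1 / 2) ^ t.1.card * (2 * ∑ j ∈ t.1, s j * sg (t.2 j))) := by
    simp_rw [habs, hfour, Finset.mul_sum]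
    rw [Finset.sum_comm]
    apply Finset.sum_congr rfl
    intro t _
    have : ∀ j : Fin n, σ j * (coef t * (if j ∈ t.1 then 2 * c * sg (t.2 j) * (1 / 2) ^ t.1.card else 0))
        = if j ∈ t.1 then coef t * ((1 / 2) ^ t.1.card * (2 * (s j * sg (t.2 j)))) else 0 := by
      intro j
      split_ifs
      · simp only [hs]; ring
      · ring
    simp_rw [this]
    rw [Finset.sum_ite_mem, Finset.univ_inter, ← Finset.mul_sum, ← Finset.mul_sum, ← Finset.mul_sum]
  -- per-term bound
  have hterm : ∀ t ∈ T, (1 / 2 : ℝ) ^ t.1.card * (2 * ∑ j ∈ t.1, s j * sg (t.2 j))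
      ≤ lam * ∑ x : Fin n → Bool, (∏ i, ((1 + e * s i * sg (x i)) / 2)) * ind t x := by
    intro t ht
    rw [sum_nu_ind]
    have hτ : ∀ i, s i * sg (t.2 i) = 1 ∨ s i * sg (t.2 i) = -1 := by
      intro i
      rcases hs1 i with h | h <;> cases hb : t.2 i <;> simp [h, sg]
    have hk := key w hw t.1 (hwidth t ht) (fun i => s i * sg (t.2 i)) hτ
    have hprod : ∏ i ∈ t.1, ((1 + e * s i * sg (t.2 i)) / 2)
        = (1 / 2 : ℝ) ^ t.1.card * ∏ i ∈ t.1, (1 + 1 / Real.sqrt w * (s i * sg (t.2 i))) := by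
      rw [Finset.prod_div_distrib, Finset.prod_const, one_div, inv_pow, div_eq_inv_mul]
      congr 1
      apply Finset.prod_congr rfl
      intro i _
      rw [he]; ring
    rw [hprod]
    have hhalf : (0 : ℝ) ≤ (1 / 2) ^ t.1.card := by positivity
    calc (1 / 2 : ℝ) ^ t.1.card * (2 * ∑ j ∈ t.1, s j * sg (t.2 j))
        ≤ (1 / 2 : ℝ) ^ t.1.card * (lam * ∏ i ∈ t.1, (1 + 1 / Real.sqrt w * (s i * sg (t.2 i)))) :=
          mul_le_mul_of_nonneg_left hk hhalf
      _ = lam * ((1 / 2 : ℝ) ^ t.1.card * ∏ i ∈ t.1, (1 + 1 / Real.sqrt w * (s i * sg (t.2 i)))) := by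
          ring
  -- nonnegativity of the weights
  have hnu0 : ∀ x : Fin n → Bool, 0 ≤ ∏ i, ((1 + e * s i * sg (x i)) / 2) := by
    intro x
    apply Finset.prod_nonneg
    intro i _
    have : -1 ≤ e * s i * sg (x i) := by
      rcases hs1 i with h | h <;> cases hb : x i <;> simp [h, sg] <;> linarith
    linarith
  have hle1 : ∀ x, (1 + c * f x) / 2 ≤ 1 := by
    intro x
    have h1 := abs_le.mp (hf x)
    rcases hc with h | h <;> rw [h] <;> linarith [h1.1, h1.2]
  rw [hL]
  calc ∑ t ∈ T, coef t * ((1 / 2) ^ t.1.card * (2 * ∑ j ∈ t.1, s j * sg (t.2 j)))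
      ≤ ∑ t ∈ T, coef t * (lam * ∑ x : Fin n → Bool, (∏ i, ((1 + e * s i * sg (x i)) / 2)) * ind t x) := by
        apply Finset.sum_le_sum
        intro t ht
        exact mul_le_mul_of_nonneg_left (hterm t ht) (hcoef t ht)
    _ = lam * ∑ x : Fin n → Bool, (∏ i, ((1 + e * s i * sg (x i)) / 2)) * ∑ t ∈ T, coef t * ind t x := by
        simp_rw [Finset.mul_sum]
        rw [Finset.sum_comm]
        apply Finset.sum_congr rfl
        intro x _
        apply Finset.sum_congr rfl
        intro t _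
        ring
    _ ≤ lam * ∑ x : Fin n → Bool, (∏ i, ((1 + e * s i * sg (x i)) / 2)) * 1 := by
        apply mul_le_mul_of_nonneg_left _ hlam0
        apply Finset.sum_le_sum
        intro x _
        rw [hrep x]
        exact mul_le_mul_of_nonneg_left (hle1 x) (hnu0 x)
    _ = lam := by
        simp_rw [mul_one]
        rw [sum_nu, mul_one]

end Vale.Agent.Results.P047.ConicalJuntaBound
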