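import Mathlib

namespace Vale.Agent.Results.P047.LinearCoefficientBound

open Finset

variable {n : ℕ}

/-- The sign in `{1, -1}` of a bit: `false ↦ 1`, `true ↦ -1`. -/
def sg (b : Bool) : ℝ := if b then -1 else 1

/-- The character `chi S x = ∏ i ∈ S, x_i` of the cube, a point `x` of `{-1,1}^n` being coded by its bits. -/
def chi (S : Finset (Fin n)) (x : Fin n → Bool) : ℝ := ∏ i ∈ S, sg (x i)

/-- The Fourier coefficient `E[f(X) ∏ i ∈ S, X_i]`, `X` uniform on the cube. -/
noncomputable def fourier (f : (Fin n → Bool) → ℝ) (S : Finset (Fin n)) : ℝ :=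
  (∑ x, f x * chi S x) / 2 ^ n

lemma sg_mul_self (b : Bool) : sg b * sg b = 1 := by
  cases b <;> simp [sg]

lemma sg_not (b : Bool) : sg (!b) = - sg b := by
  cases b <;> simp [sg]

lemma abs_sg (b : Bool) : |sg b| = 1 := by
  cases b <;> simp [sg]

lemma abs_chi (S : Finset (Fin n)) (x : Fin n → Bool) : |chi S x| = 1 := by
  unfold chi
  rw [Finset.abs_prod]
  simp [abs_sg]

lemma chi_empty (x : Fin n → Bool) : chi ∅ x = 1 := by
  simp [chi]

lemma sum_chi_mul_chi (x y : Fin n → Bool) :
    ∑ S : Finset (Fin n), chi S x * chi S y = if x = y then (2 : ℝ) ^ n else 0 := by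
  have h1 : ∀ S : Finset (Fin n), chi S x * chi S y = ∏ i ∈ S, (sg (x i) * sg (y i)) := by
    intro S
    unfold chi
    rw [Finset.prod_mul_distrib]
  simp_rw [h1]
  have h2 : ∑ S : Finset (Fin n), ∏ i ∈ S, (sg (x i) * sg (y i))
      = ∏ i : Fin n, (1 + sg (x i) * sg (y i)) := by
    rw [Finset.prod_one_add, Finset.powerset_univ]
  rw [h2]
  split_ifs with hxy
  · subst hxy
    have : ∀ i : Fin n, (1 + sg (x i) * sg (x i)) = 2 := by
      intro i
      rw [sg_mul_self]
      norm_num
    simp [this]
  · have : ∃ i, x i ≠ y i := by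
      by_contra hcon
      push Not at hcon
      exact hxy (funext hcon)
    obtain ⟨i, hi⟩ := this
    apply Finset.prod_eq_zero (Finset.mem_univ i)
    cases hx : x i <;> cases hy : y i <;> simp_all [sg]

lemma fourier_inversion (f : (Fin n → Bool) → ℝ) (x : Fin n → Bool) :
    f x = ∑ S : Finset (Fin n), fourier f S * chi S x := by
  unfold fourier
  have h1 : ∀ S : Finset (Fin n), (∑ y, f y * chi S y) / 2 ^ n * chi S x
      = ∑ y, f y * (chi S y * chi S x) / 2 ^ n := by
    intro S
    rw [Finset.sum_div, Finset.sum_mul]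
    apply Finset.sum_congr rfl
    intro y _
    ring
  simp_rw [h1]
  rw [Finset.sum_comm]
  have h2 : ∀ y : Fin n → Bool, ∑ S : Finset (Fin n), f y * (chi S y * chi S x) / 2 ^ n
      = if y = x then f y else 0 := by
    intro y
    have h3 : ∑ S : Finset (Fin n), f y * (chi S y * chi S x) / 2 ^ n
        = f y * (∑ S : Finset (Fin n), chi S y * chi S x) / 2 ^ n := by
      rw [Finset.mul_sum, Finset.sum_div]
    rw [h3, sum_chi_mul_chi y x]
    split_ifs with hyx
    · field_simp
    · simp
  simp_rw [h2]
  simp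

lemma parseval (g : (Fin n → Bool) → ℝ) :
    ∑ S : Finset (Fin n), fourier g S ^ 2 = (∑ x, g x ^ 2) / 2 ^ n := by
  have h1 : ∀ S : Finset (Fin n), fourier g S ^ 2
      = ∑ x, g x * (fourier g S * chi S x) / 2 ^ n := by
    intro S
    have : fourier g S ^ 2 = fourier g S * ((∑ x, g x * chi S x) / 2 ^ n) := by
      rw [sq]; rfl
    rw [this, Finset.sum_div, Finset.mul_sum]
    apply Finset.sum_congr rfl
    intro y _
    ring
  simp_rw [h1]
  rw [Finset.sum_comm, Finset.sum_div]
  apply Finset.sum_congr rfl
  intro x _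
  rw [← Finset.sum_div, ← Finset.mul_sum, ← fourier_inversion g x]
  ring

/-- Negating coordinate `i` of a point of the cube. -/
def flip (i : Fin n) (x : Fin n → Bool) : Fin n → Bool := Function.update x i (!x i)

lemma flip_apply_self (i : Fin n) (x : Fin n → Bool) : flip i x i = !x i := by
  simp [flip]

lemma flip_apply_ne (i j : Fin n) (x : Fin n → Bool) (h : j ≠ i) : flip i x j = x j := by
  simp [flip, Function.update_of_ne h]

lemma flip_flip (i : Fin n) (x : Fin n → Bool) : flip i (flip i x) = x := by
  funext j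
  by_cases h : j = i
  · subst h
    simp [flip_apply_self]
  · simp [flip_apply_ne _ _ _ h]

lemma flip_comm (i j : Fin n) (x : Fin n → Bool) : flip i (flip j x) = flip j (flip i x) := by
  funext k
  by_cases hi : k = i <;> by_cases hj : k = j
  · subst hi; subst hj; rfl
  · subst hi
    have hij : k ≠ j := hj
    rw [flip_apply_self, flip_apply_ne j k _ hij, flip_apply_ne j k _ hij, flip_apply_self]
  · subst hj
    have hki : k ≠ i := hi
    rw [flip_apply_ne i k _ hki, flip_apply_self, flip_apply_self, flip_apply_ne i k _ hki]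
  · rw [flip_apply_ne i k _ hi, flip_apply_ne j k _ hj, flip_apply_ne j k _ hj,
      flip_apply_ne i k _ hi]

lemma sum_flip (i : Fin n) (F : (Fin n → Bool) → ℝ) : ∑ x, F (flip i x) = ∑ x, F x := by
  have hinv : Function.Involutive (flip i : (Fin n → Bool) → (Fin n → Bool)) := flip_flip i
  exact Equiv.sum_comp hinv.toPerm F

lemma chi_flip (S : Finset (Fin n)) (i : Fin n) (x : Fin n → Bool) :
    chi S (flip i x) = if i ∈ S then - chi S x else chi S x := by
  unfold chi
  split_ifs with hi
  · rw [← Finset.mul_prod_erase S _ hi, ← Finset.mul_prod_erase S (fun j => sg (x j)) hi]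
    rw [flip_apply_self, sg_not]
    have : ∏ j ∈ S.erase i, sg (flip i x j) = ∏ j ∈ S.erase i, sg (x j) := by
      apply Finset.prod_congr rfl
      intro j hj
      rw [flip_apply_ne i j x (Finset.ne_of_mem_erase hj)]
    rw [this]
    ring
  · apply Finset.prod_congr rfl
    intro j hj
    have hji : j ≠ i := fun h => hi (h ▸ hj)
    rw [flip_apply_ne i j x hji]

lemma fourier_comp_flip (f : (Fin n → Bool) → ℝ) (i : Fin n) (S : Finset (Fin n)) :
    fourier (fun x => f (flip i x)) S = if i ∈ S then - fourier f S else fourier f S := by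
  unfold fourier
  have h1 : ∑ x, f (flip i x) * chi S x = ∑ x, f x * chi S (flip i x) := by
    rw [← sum_flip i (fun x => f x * chi S (flip i x))]
    apply Finset.sum_congr rfl
    intro x _
    rw [flip_flip]
  rw [h1]
  split_ifs with hi
  · have : ∑ x, f x * chi S (flip i x) = - ∑ x, f x * chi S x := by
      rw [← Finset.sum_neg_distrib]
      apply Finset.sum_congr rfl
      intro x _
      rw [chi_flip, if_pos hi]
      ring
    rw [this]
    ring
  · have : ∑ x, f x * chi S (flip i x) = ∑ x, f x * chi S x := by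
      apply Finset.sum_congr rfl
      intro x _
      rw [chi_flip, if_neg hi]
    rw [this]

lemma fourier_add (f g : (Fin n → Bool) → ℝ) (S : Finset (Fin n)) :
    fourier (fun x => f x + g x) S = fourier f S + fourier g S := by
  unfold fourier
  rw [← add_div, ← Finset.sum_add_distrib]
  congr 1
  apply Finset.sum_congr rfl
  intro x _
  ring

lemma fourier_sub (f g : (Fin n → Bool) → ℝ) (S : Finset (Fin n)) :
    fourier (fun x => f x - g x) S = fourier f S - fourier g S := by
  unfold fourier
  rw [← sub_div, ← Finset.sum_sub_distrib]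
  congr 1
  apply Finset.sum_congr rfl
  intro x _
  ring

lemma fourier_smul (c : ℝ) (f : (Fin n → Bool) → ℝ) (S : Finset (Fin n)) :
    fourier (fun x => c * f x) S = c * fourier f S := by
  unfold fourier
  rw [← mul_div_assoc, Finset.mul_sum]
  congr 1
  apply Finset.sum_congr rfl
  intro x _
  ring

/-- Fourier coefficients of the discrete derivative `(f - f ∘ flip i) / 2`. -/
lemma fourier_deriv (f : (Fin n → Bool) → ℝ) (i : Fin n) (S : Finset (Fin n)) :
    fourier (fun x => (f x - f (flip i x)) / 2) S = if i ∈ S then fourier f S else 0 := by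
  have h1 : (fun x => (f x - f (flip i x)) / 2)
      = (fun x => (1 / 2 : ℝ) * (f x - f (flip i x))) := by
    funext x; ring
  rw [h1, fourier_smul, fourier_sub f (fun x => f (flip i x)), fourier_comp_flip]
  split_ifs with hi <;> ring

/-- Multiplying by the coordinate `x_i` after taking the difference `f - f ∘ flip i`. -/
lemma fourier_sg_mul_diff (f : (Fin n → Bool) → ℝ) (i : Fin n) (S : Finset (Fin n)) :
    fourier (fun x => sg (x i) * (f x - f (flip i x))) S
      = if i ∈ S then 0 else 2 * fourier f (insert i S) := by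
  split_ifs with hi
  · -- sg (x i) * chi S x = chi (S.erase i) x
    have h1 : ∀ x : Fin n → Bool, sg (x i) * (f x - f (flip i x)) * chi S x
        = (f x - f (flip i x)) * chi (S.erase i) x := by
      intro x
      unfold chi
      rw [← Finset.mul_prod_erase S (fun j => sg (x j)) hi]
      have := sg_mul_self (x i)
      linear_combination (f x - f (flip i x)) * (∏ j ∈ S.erase i, sg (x j)) * this
    have h2 : fourier (fun x => sg (x i) * (f x - f (flip i x))) S
        = fourier (fun x => f x - f (flip i x)) (S.erase i) := by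
      unfold fourier
      congr 1
      apply Finset.sum_congr rfl
      intro x _
      exact h1 x
    rw [h2, fourier_sub f (fun x => f (flip i x)), fourier_comp_flip,
      if_neg (Finset.notMem_erase i S)]
    ring
  · have h1 : ∀ x : Fin n → Bool, sg (x i) * (f x - f (flip i x)) * chi S x
        = (f x - f (flip i x)) * chi (insert i S) x := by
      intro x
      unfold chi
      rw [Finset.prod_insert hi]
      ring
    have h2 : fourier (fun x => sg (x i) * (f x - f (flip i x))) S
        = fourier (fun x => f x - f (flip i x)) (insert i S) := by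
      unfold fourier
      congr 1
      apply Finset.sum_congr rfl
      intro x _
      exact h1 x
    rw [h2, fourier_sub f (fun x => f (flip i x)), fourier_comp_flip,
      if_pos (Finset.mem_insert_self i S)]
    ring

/-- Granularity: for an integer-valued function `h` on the cube whose Fourier coefficients
vanish above level `k`, the number `2^k * E[h]` is an integer.  The auxiliary set `A` lists
the coordinates on which `h` may depend. -/
lemma granular_aux (A : Finset (Fin n)) :
    ∀ (k : ℕ) (h : (Fin n → Bool) → ℝ), (∀ x, ∃ z : ℤ, h x = z) →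
      (∀ S : Finset (Fin n), k < S.card → fourier h S = 0) →
      (∀ i, i ∉ A → ∀ x, h (flip i x) = h x) →
      ∃ z : ℤ, (2 : ℝ) ^ k * fourier h ∅ = z := by
  induction A using Finset.induction_on with
  | empty =>
    intro k h hint hdeg hinv
    have hz : ∀ S : Finset (Fin n), S ≠ ∅ → fourier h S = 0 := by
      intro S hS
      obtain ⟨i, hi⟩ := Finset.nonempty_iff_ne_empty.mpr hS
      have h1 := fourier_comp_flip h i S
      rw [if_pos hi] at h1
      have h2 : (fun x => h (flip i x)) = h := by
        funext x; exact hinv i (Finset.notMem_empty i) x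
      rw [h2] at h1
      linarith
    have hc : h (fun _ => false) = fourier h ∅ := by
      rw [fourier_inversion h (fun _ => false)]
      rw [Finset.sum_eq_single ∅]
      · rw [chi_empty, mul_one]
      · intro S _ hS
        rw [hz S hS, zero_mul]
      · intro hh; exact absurd (Finset.mem_univ _) hh
    obtain ⟨z, hz'⟩ := hint (fun _ => false)
    refine ⟨2 ^ k * z, ?_⟩
    rw [← hc, hz']
    push_cast
    ring
  | insert j A hj ih =>
    intro k h hint hdeg hinv
    have hgint : ∀ x : Fin n → Bool, ∃ z : ℤ, sg (x j) * (h x - h (flip j x)) = z := by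
      intro x
      obtain ⟨z1, hz1⟩ := hint x
      obtain ⟨z2, hz2⟩ := hint (flip j x)
      cases hx : x j
      · exact ⟨z1 - z2, by simp [sg, hz1, hz2]⟩
      · exact ⟨z2 - z1, by simp [sg, hz1, hz2]⟩
    have hmint : ∀ x : Fin n → Bool, ∃ z : ℤ, (if x j then h x else h (flip j x)) = z := by
      intro x
      obtain ⟨z1, hz1⟩ := hint x
      obtain ⟨z2, hz2⟩ := hint (flip j x)
      cases hx : x j
      · exact ⟨z2, by simp [hz2]⟩
      · exact ⟨z1, by simp [hz1]⟩
    -- pointwise formula for hm
    have hmeq : (fun x : Fin n → Bool => if x j then h x else h (flip j x))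
        = fun x => (fun y => (1 / 2 : ℝ) * (h y + h (flip j y))) x
            - (fun y => (1 / 2 : ℝ) * (sg (y j) * (h y - h (flip j y)))) x := by
      funext x
      beta_reduce
      cases hx : x j <;> simp [sg] <;> ring
    have hmfour : ∀ S : Finset (Fin n),
        fourier (fun x : Fin n → Bool => if x j then h x else h (flip j x)) S
          = (1 / 2 : ℝ) * (fourier h S + fourier (fun x => h (flip j x)) S)
            - (1 / 2 : ℝ) * fourier (fun x => sg (x j) * (h x - h (flip j x))) S := by
      intro S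
      rw [hmeq, fourier_sub, fourier_smul, fourier_smul, fourier_add]
    -- invariance
    have hginv : ∀ i, i ∉ A → ∀ x,
        sg (flip i x j) * (h (flip i x) - h (flip j (flip i x)))
          = sg (x j) * (h x - h (flip j x)) := by
      intro i hi x
      by_cases hij : i = j
      · subst hij
        rw [flip_apply_self, flip_flip, sg_not]
        ring
      · have hi' : i ∉ insert j A := by
          simp [Finset.mem_insert, hij, hi]
        have hji : j ≠ i := fun e => hij e.symm
        rw [flip_apply_ne i j x hji, hinv i hi' x, ← flip_comm, hinv i hi' (flip j x)]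
    have hminv : ∀ i, i ∉ A → ∀ x,
        (if flip i x j then h (flip i x) else h (flip j (flip i x)))
          = (if x j then h x else h (flip j x)) := by
      intro i hi x
      by_cases hij : i = j
      · subst hij
        rw [flip_apply_self, flip_flip]
        cases hx : x i <;> simp
      · have hi' : i ∉ insert j A := by
          simp [Finset.mem_insert, hij, hi]
        have hji : j ≠ i := fun e => hij e.symm
        rw [flip_apply_ne i j x hji, hinv i hi' x, ← flip_comm, hinv i hi' (flip j x)]
    -- degrees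
    have hmdeg : ∀ S : Finset (Fin n), k < S.card →
        fourier (fun x : Fin n → Bool => if x j then h x else h (flip j x)) S = 0 := by
      intro S hS
      rw [hmfour, fourier_comp_flip, fourier_sg_mul_diff, hdeg S hS]
      have h3 : fourier h (insert j S) = 0 := by
        apply hdeg
        have := Finset.card_le_card (Finset.subset_insert j S)
        omega
      rw [h3]
      split_ifs <;> ring
    -- mean
    have hmean : fourier h ∅
        = fourier (fun x : Fin n → Bool => if x j then h x else h (flip j x)) ∅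
          + (1 / 2 : ℝ) * fourier (fun x => sg (x j) * (h x - h (flip j x))) ∅ := by
      rw [hmfour, fourier_comp_flip, if_neg (Finset.notMem_empty j)]
      ring
    rcases Nat.eq_zero_or_pos k with hk | hk
    · subst hk
      have hg0 : fourier (fun x => sg (x j) * (h x - h (flip j x))) ∅ = 0 := by
        rw [fourier_sg_mul_diff, if_neg (Finset.notMem_empty j)]
        have : fourier h (insert j ∅) = 0 := by
          apply hdeg
          simp
        rw [this, mul_zero]
      obtain ⟨z, hz⟩ := ih 0 _ hmint hmdeg hminv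
      refine ⟨z, ?_⟩
      rw [hmean, hg0, mul_zero, add_zero]
      exact hz
    · have hgdeg : ∀ S : Finset (Fin n), k - 1 < S.card →
          fourier (fun x => sg (x j) * (h x - h (flip j x))) S = 0 := by
        intro S hS
        rw [fourier_sg_mul_diff]
        split_ifs with hjS
        · rfl
        · have : fourier h (insert j S) = 0 := by
            apply hdeg
            rw [Finset.card_insert_of_notMem hjS]
            omega
          rw [this, mul_zero]
      obtain ⟨z1, hz1⟩ := ih k _ hmint hmdeg hminv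
      obtain ⟨z2, hz2⟩ := ih (k - 1) _ hgint hgdeg hginv
      refine ⟨z1 + z2, ?_⟩
      have hpow : (2 : ℝ) ^ k = 2 * 2 ^ (k - 1) := by
        rw [← pow_succ']
        congr 1
        omega
      push_cast
      rw [← hz1, ← hz2, hmean, hpow]
      ring

lemma abs_fourier_singleton_le (f : (Fin n → Bool) → ℝ) (hf : ∀ x, f x = 1 ∨ f x = -1)
    (i : Fin n) :
    |fourier f {i}| ≤ ∑ S : Finset (Fin n), if i ∈ S then fourier f S ^ 2 else 0 := by
  have h1 : fourier f {i} = fourier (fun x => (f x - f (flip i x)) / 2) {i} := by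
    rw [fourier_deriv, if_pos (Finset.mem_singleton_self i)]
  have h2 : |fourier (fun x => (f x - f (flip i x)) / 2) {i}|
      ≤ (∑ x, ((f x - f (flip i x)) / 2) ^ 2) / 2 ^ n := by
    unfold fourier
    rw [abs_div, abs_of_pos (by positivity : (0 : ℝ) < 2 ^ n)]
    apply div_le_div_of_nonneg_right _ (by positivity)
    calc |∑ x, (f x - f (flip i x)) / 2 * chi {i} x|
        ≤ ∑ x, |(f x - f (flip i x)) / 2 * chi {i} x| := Finset.abs_sum_le_sum_abs _ _
      _ = ∑ x, ((f x - f (flip i x)) / 2) ^ 2 := by
        apply Finset.sum_congr rfl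
        intro x _
        rw [abs_mul, abs_chi, mul_one]
        rcases hf x with h | h <;> rcases hf (flip i x) with h' | h' <;> rw [h, h'] <;> norm_num
  have h3 : (∑ x, ((f x - f (flip i x)) / 2) ^ 2) / 2 ^ n
      = ∑ S : Finset (Fin n), fourier (fun x => (f x - f (flip i x)) / 2) S ^ 2 :=
    (parseval (fun x => (f x - f (flip i x)) / 2)).symm
  have h4 : ∑ S : Finset (Fin n), fourier (fun x => (f x - f (flip i x)) / 2) S ^ 2
      = ∑ S : Finset (Fin n), if i ∈ S then fourier f S ^ 2 else 0 := by
    apply Finset.sum_congr rfl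
    intro S _
    rw [fourier_deriv]
    split_ifs <;> simp
  rw [h1]
  calc |fourier (fun x => (f x - f (flip i x)) / 2) {i}|
      ≤ (∑ x, ((f x - f (flip i x)) / 2) ^ 2) / 2 ^ n := h2
    _ = ∑ S : Finset (Fin n), fourier (fun x => (f x - f (flip i x)) / 2) S ^ 2 := h3
    _ = ∑ S : Finset (Fin n), if i ∈ S then fourier f S ^ 2 else 0 := h4

lemma parseval_boolean (f : (Fin n → Bool) → ℝ) (hf : ∀ x, f x = 1 ∨ f x = -1) :
    ∑ S : Finset (Fin n), fourier f S ^ 2 = 1 := by
  rw [parseval]
  have h1 : ∀ x, f x ^ 2 = 1 := by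
    intro x
    rcases hf x with h | h <;> rw [h] <;> norm_num
  simp [h1]

lemma sum_abs_le (f : (Fin n → Bool) → ℝ) (hf : ∀ x, f x = 1 ∨ f x = -1) (d : ℕ)
    (hd : 1 ≤ d) (hdeg : ∀ S : Finset (Fin n), d < S.card → fourier f S = 0) :
    ∑ i, |fourier f {i}| ≤ (d : ℝ) - ((d : ℝ) - 1) * ∑ i, fourier f {i} ^ 2 := by
  have hpars := parseval_boolean f hf
  have hd' : (0 : ℝ) ≤ (d : ℝ) - 1 := by
    have : (1 : ℝ) ≤ d := by exact_mod_cast hd
    linarith
  have hle : ∑ i, fourier f {i} ^ 2
      ≤ ∑ S : Finset (Fin n), (if S.card = 1 then fourier f S ^ 2 else 0) := by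
    rw [← Finset.sum_filter]
    have himg : ∑ i : Fin n, fourier f {i} ^ 2
        = ∑ S ∈ (Finset.univ : Finset (Fin n)).image (fun i => ({i} : Finset (Fin n))),
            fourier f S ^ 2 := by
      rw [Finset.sum_image]
      intro a _ b _ hab
      exact Finset.singleton_injective hab
    rw [himg]
    apply Finset.sum_le_sum_of_subset_of_nonneg
    · intro S hS
      rw [Finset.mem_image] at hS
      obtain ⟨i, _, rfl⟩ := hS
      simp
    · intro S _ _
      exact sq_nonneg _
  calc ∑ i, |fourier f {i}|
      ≤ ∑ i, ∑ S : Finset (Fin n), (if i ∈ S then fourier f S ^ 2 else 0) :=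
        Finset.sum_le_sum (fun i _ => abs_fourier_singleton_le f hf i)
    _ = ∑ S : Finset (Fin n), ∑ i, (if i ∈ S then fourier f S ^ 2 else 0) := Finset.sum_comm
    _ = ∑ S : Finset (Fin n), (S.card : ℝ) * fourier f S ^ 2 := by
        apply Finset.sum_congr rfl
        intro S _
        rw [Finset.sum_ite_mem, Finset.univ_inter, Finset.sum_const, nsmul_eq_mul]
    _ ≤ ∑ S : Finset (Fin n), ((d : ℝ) * fourier f S ^ 2
          - ((d : ℝ) - 1) * (if S.card = 1 then fourier f S ^ 2 else 0)) := by
        apply Finset.sum_le_sum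
        intro S _
        by_cases h1 : S.card = 1
        · rw [if_pos h1, h1]
          push_cast
          linarith
        · rw [if_neg h1]
          by_cases h2 : d < S.card
          · rw [hdeg S h2]
            simp
          · have h3 : (S.card : ℝ) ≤ d := by exact_mod_cast (not_lt.mp h2)
            have hsq : 0 ≤ fourier f S ^ 2 := sq_nonneg _
            nlinarith
    _ = (d : ℝ) * 1 - ((d : ℝ) - 1)
          * ∑ S : Finset (Fin n), (if S.card = 1 then fourier f S ^ 2 else 0) := by
        rw [Finset.sum_sub_distrib, ← Finset.mul_sum, ← Finset.mul_sum, hpars]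
    _ ≤ (d : ℝ) - ((d : ℝ) - 1) * ∑ i, fourier f {i} ^ 2 := by
        nlinarith

lemma sq_ge (f : (Fin n → Bool) → ℝ) (hf : ∀ x, f x = 1 ∨ f x = -1) (d : ℕ)
    (hd : 1 ≤ d) (hdeg : ∀ S : Finset (Fin n), d < S.card → fourier f S = 0) (i : Fin n) :
    |fourier f {i}| / 2 ^ (d - 1) ≤ fourier f {i} ^ 2 := by
  have hint : ∀ x : Fin n → Bool, ∃ z : ℤ, sg (x i) * ((f x - f (flip i x)) / 2) = z := by
    intro x
    rcases hf x with h1 | h1 <;> rcases hf (flip i x) with h2 | h2 <;> cases hx : x i
    · exact ⟨0, by simp [h1, h2]⟩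
    · exact ⟨0, by simp [h1, h2]⟩
    · exact ⟨1, by simp [h1, h2, sg]⟩
    · exact ⟨-1, by simp [h1, h2, sg]⟩
    · exact ⟨-1, by simp [h1, h2, sg]; norm_num⟩
    · exact ⟨1, by simp [h1, h2, sg]; norm_num⟩
    · exact ⟨0, by simp [h1, h2]⟩
    · exact ⟨0, by simp [h1, h2]⟩
  have hfour : ∀ S : Finset (Fin n),
      fourier (fun x => sg (x i) * ((f x - f (flip i x)) / 2)) S
        = if i ∈ S then 0 else fourier f (insert i S) := by
    intro S
    have h1 : (fun x : Fin n → Bool => sg (x i) * ((f x - f (flip i x)) / 2))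
        = fun x => (1 / 2 : ℝ) * (fun y => sg (y i) * (f y - f (flip i y))) x := by
      funext x
      ring
    rw [h1, fourier_smul, fourier_sg_mul_diff]
    split_ifs <;> ring
  have hdeg' : ∀ S : Finset (Fin n), d - 1 < S.card →
      fourier (fun x => sg (x i) * ((f x - f (flip i x)) / 2)) S = 0 := by
    intro S hS
    rw [hfour]
    split_ifs with hi
    · rfl
    · apply hdeg
      rw [Finset.card_insert_of_notMem hi]
      omega
  obtain ⟨z, hz⟩ := granular_aux Finset.univ (d - 1) _ hint hdeg'
    (fun j hj => absurd (Finset.mem_univ j) hj)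
  have h0 : fourier (fun x => sg (x i) * ((f x - f (flip i x)) / 2)) ∅ = fourier f {i} := by
    rw [hfour, if_neg (Finset.notMem_empty i)]
    rfl
  rw [h0] at hz
  have hpos : (0 : ℝ) < 2 ^ (d - 1) := by positivity
  have hval : fourier f {i} = z / 2 ^ (d - 1) := by
    rw [eq_div_iff hpos.ne']
    linarith
  have hz2 : |(z : ℝ)| ≤ (z : ℝ) ^ 2 := by
    have h1 : |z| ≤ z ^ 2 := by
      rw [← sq_abs]
      rcases (abs_nonneg z).eq_or_lt with h | h
      · rw [← h]; norm_num
      · have : 1 ≤ |z| := h
        nlinarith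
    exact_mod_cast h1
  rw [hval, abs_div, abs_of_pos hpos, div_pow, div_div]
  rw [div_le_div_iff₀ (by positivity) (by positivity)]
  have h5 : (0 : ℝ) ≤ 2 ^ (d - 1) * 2 ^ (d - 1) := by positivity
  calc |(z : ℝ)| * (2 ^ (d - 1)) ^ 2 = |(z : ℝ)| * (2 ^ (d - 1) * 2 ^ (d - 1)) := by ring
    _ ≤ (z : ℝ) ^ 2 * (2 ^ (d - 1) * 2 ^ (d - 1)) := mul_le_mul_of_nonneg_right hz2 h5

/-- **Main result.** For every `n`, every `d ≥ 1` and every Boolean function `f` on the cube
`{-1,1}^n` of degree at most `d`, the sum of the level-one Fourier coefficients is at most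
`d / (1 + (d - 1) / 2^(d-1))`. -/
theorem result (n d : ℕ) (hd : 1 ≤ d) (f : (Fin n → Bool) → ℝ)
    (hf : ∀ x, f x = 1 ∨ f x = -1)
    (hdeg : ∀ S : Finset (Fin n), d < S.card → fourier f S = 0) :
    ∑ i, fourier f {i} ≤ (d : ℝ) / (1 + ((d : ℝ) - 1) / 2 ^ (d - 1)) := by
  have h1 := sum_abs_le f hf d hd hdeg
  have h2 : (∑ i, |fourier f {i}|) / 2 ^ (d - 1) ≤ ∑ i, fourier f {i} ^ 2 := by
    rw [Finset.sum_div]
    exact Finset.sum_le_sum (fun i _ => sq_ge f hf d hd hdeg i)
  have hle : ∑ i, fourier f {i} ≤ ∑ i, |fourier f {i}| :=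
    Finset.sum_le_sum (fun i _ => le_abs_self _)
  have hd1 : (0 : ℝ) ≤ (d : ℝ) - 1 := by
    have : (1 : ℝ) ≤ d := by exact_mod_cast hd
    linarith
  have hpos : (0 : ℝ) < 2 ^ (d - 1) := by positivity
  have hq : (0 : ℝ) ≤ ((d : ℝ) - 1) / 2 ^ (d - 1) := div_nonneg hd1 hpos.le
  have hden : (0 : ℝ) < 1 + ((d : ℝ) - 1) / 2 ^ (d - 1) := by linarith
  rw [le_div_iff₀ hden]
  have h3 : (∑ i, |fourier f {i}|) * (1 + ((d : ℝ) - 1) / 2 ^ (d - 1)) ≤ d := by
    have h4 : ((d : ℝ) - 1) * ((∑ i, |fourier f {i}|) / 2 ^ (d - 1))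
        ≤ ((d : ℝ) - 1) * ∑ i, fourier f {i} ^ 2 := mul_le_mul_of_nonneg_left h2 hd1
    have e : (∑ i, |fourier f {i}|) * (1 + ((d : ℝ) - 1) / 2 ^ (d - 1))
        = (∑ i, |fourier f {i}|) + ((d : ℝ) - 1) * ((∑ i, |fourier f {i}|) / 2 ^ (d - 1)) := by
      ring
    rw [e]
    linarith
  calc (∑ i, fourier f {i}) * (1 + ((d : ℝ) - 1) / 2 ^ (d - 1))
      ≤ (∑ i, |fourier f {i}|) * (1 + ((d : ℝ) - 1) / 2 ^ (d - 1)) :=
        mul_le_mul_of_nonneg_right hle hden.le
    _ ≤ d := h3

end Vale.Agent.Results.P047.LinearCoefficientBound
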