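import Mathlib
import Vale.Agent.Lib.ConicalJuntaBound

namespace Vale.Agent.Results.P047.SubcubePartitionBound

open Finset
open Vale.Agent.Results.P047.ConicalJuntaBound

variable {n : ℕ}

lemma pow_half {k : ℕ} (hk : k ≤ n) : (2 : ℝ) ^ (n - k) / 2 ^ n = (1 / 2) ^ k := by
  rw [pow_sub₀ (2 : ℝ) (by norm_num) hk, one_div, inv_pow]
  have h2n : (2 : ℝ) ^ n ≠ 0 := by positivity
  field_simp

lemma card_le (t : Finset (Fin n) × (Fin n → Bool)) : t.1.card ≤ n := by
  simpa using Finset.card_le_univ t.1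

lemma E_ind (t : Finset (Fin n) × (Fin n → Bool)) :
    (∑ x : Fin n → Bool, ind t x) / 2 ^ n = (1 / 2) ^ t.1.card := by
  have h := sum_weight_ind (fun _ _ => (1 : ℝ)) t
  simp only [Finset.prod_const_one, one_mul] at h
  rw [h, ← Finset.prod_mul_prod_compl t.1]
  have hA : ∏ k ∈ t.1, (if k ∈ t.1 then (1 : ℝ) else 1 + 1) = 1 := by
    apply Finset.prod_eq_one
    intro k hk
    rw [if_pos hk]
  have hB : ∏ k ∈ t.1ᶜ, (if k ∈ t.1 then (1 : ℝ) else 1 + 1) = 2 ^ (n - t.1.card) := by
    have : ∀ k ∈ t.1ᶜ, (if k ∈ t.1 then (1 : ℝ) else 1 + 1) = 2 := by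
      intro k hk
      rw [if_neg (Finset.mem_compl.mp hk)]
      norm_num
    rw [Finset.prod_congr rfl this, Finset.prod_const, Finset.card_compl, Fintype.card_fin]
  rw [hA, hB, one_mul, pow_half (card_le t)]

lemma E_ind_sg (t : Finset (Fin n) × (Fin n → Bool)) (j : Fin n) :
    (∑ x : Fin n → Bool, ind t x * sg (x j)) / 2 ^ n
      = if j ∈ t.1 then sg (t.2 j) * (1 / 2) ^ t.1.card else 0 := by
  rw [sum_ind_sg]
  split_ifs
  · rw [mul_div_assoc, pow_half (card_le t)]
  · simp

lemma sum_ind_sg2 (t : Finset (Fin n) × (Fin n → Bool)) (i j : Fin n) (hij : i ≠ j) :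
    ∑ x : Fin n → Bool, ind t x * (sg (x i) * sg (x j))
      = if i ∈ t.1 ∧ j ∈ t.1 then sg (t.2 i) * sg (t.2 j) * 2 ^ (n - t.1.card) else 0 := by
  set q : Fin n → Bool → ℝ := fun k b => if k = i ∨ k = j then sg b else 1 with hq
  have hqi : ∀ b, q i b = sg b := by intro b; simp [hq]
  have hqj : ∀ b, q j b = sg b := by intro b; simp [hq]
  have hqk : ∀ k, k ≠ i → k ≠ j → ∀ b, q k b = 1 := by
    intro k h1 h2 b; simp [hq, h1, h2]
  have h1 : ∀ x : Fin n → Bool, ind t x * (sg (x i) * sg (x j)) = (∏ k, q k (x k)) * ind t x := by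
    intro x
    have : ∏ k, q k (x k) = q i (x i) * q j (x j) := by
      apply Finset.prod_eq_mul i j hij
      · intro c _ hc; exact hqk c hc.1 hc.2 _
      · intro h; exact absurd (Finset.mem_univ i) h
      · intro h; exact absurd (Finset.mem_univ j) h
    rw [this, hqi, hqj]; ring
  simp_rw [h1]
  rw [sum_weight_ind q]
  split_ifs with h
  · obtain ⟨hi, hj⟩ := h
    rw [← Finset.prod_mul_prod_compl t.1]
    have hA : ∏ k ∈ t.1, (if k ∈ t.1 then q k (t.2 k) else q k true + q k false)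
        = sg (t.2 i) * sg (t.2 j) := by
      have h2 : ∀ k ∈ t.1, (if k ∈ t.1 then q k (t.2 k) else q k true + q k false) = q k (t.2 k) := by
        intro k hk; rw [if_pos hk]
      rw [Finset.prod_congr rfl h2]
      have h3 : ∏ k ∈ t.1, q k (t.2 k) = q i (t.2 i) * q j (t.2 j) := by
        apply Finset.prod_eq_mul i j hij
        · intro c _ hc; exact hqk c hc.1 hc.2 _
        · intro h; exact absurd hi h
        · intro h; exact absurd hj h
      rw [h3, hqi, hqj]
    have hB : ∏ k ∈ t.1ᶜ, (if k ∈ t.1 then q k (t.2 k) else q k true + q k false)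
        = 2 ^ (n - t.1.card) := by
      have h2 : ∀ k ∈ t.1ᶜ, (if k ∈ t.1 then q k (t.2 k) else q k true + q k false) = (2 : ℝ) := by
        intro k hk
        have hk' : k ∉ t.1 := Finset.mem_compl.mp hk
        have hki : k ≠ i := fun h => hk' (h ▸ hi)
        have hkj : k ≠ j := fun h => hk' (h ▸ hj)
        rw [if_neg hk', hqk k hki hkj, hqk k hki hkj]
        norm_num
      rw [Finset.prod_congr rfl h2, Finset.prod_const, Finset.card_compl, Fintype.card_fin]
    rw [hA, hB]
  · push Not at h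
    by_cases hi : i ∈ t.1
    · have hj := h hi
      apply Finset.prod_eq_zero (Finset.mem_univ j)
      rw [if_neg hj, hqj, hqj]
      simp [sg]
    · apply Finset.prod_eq_zero (Finset.mem_univ i)
      rw [if_neg hi, hqi, hqi]
      simp [sg]

lemma E_ind_sg2 (t : Finset (Fin n) × (Fin n → Bool)) (i j : Fin n) (hij : i ≠ j) :
    (∑ x : Fin n → Bool, ind t x * (sg (x i) * sg (x j))) / 2 ^ n
      = if i ∈ t.1 ∧ j ∈ t.1 then sg (t.2 i) * sg (t.2 j) * (1 / 2) ^ t.1.card else 0 := by
  rw [sum_ind_sg2 t i j hij]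
  split_ifs
  · rw [mul_div_assoc, pow_half (card_le t)]
  · simp

lemma sg_sq (b : Bool) : sg b * sg b = 1 := by
  cases b <;> simp [sg]

/-- Main theorem. -/
theorem result (n : ℕ) (f : (Fin n → Bool) → ℝ)
    (T : Finset (Finset (Fin n) × (Fin n → Bool)))
    (coef val : Finset (Fin n) × (Fin n → Bool) → ℝ)
    (hcoef : ∀ t ∈ T, 0 ≤ coef t) (hval : ∀ t ∈ T, |val t| ≤ 1)
    (hpart : ∀ x, ∑ t ∈ T, coef t * ind t x = 1)
    (hf : ∀ x, f x = ∑ t ∈ T, coef t * val t * ind t x) :
    ∑ i, |ConicalJuntaBound.fourier f {i}| ≤ Real.sqrt (∑ t ∈ T, coef t * ((t.1.card : ℝ) / 2 ^ t.1.card)) ∧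
    ∀ w : ℕ, (∀ t ∈ T, t.1.card ≤ w) → ∑ i, |ConicalJuntaBound.fourier f {i}| ≤ Real.sqrt w := by
  classical
  -- weights
  set u : Finset (Fin n) × (Fin n → Bool) → ℝ := fun t => coef t * (1 / 2) ^ t.1.card with hu
  have hu0 : ∀ t ∈ T, 0 ≤ u t := by
    intro t ht
    simp only [hu]
    exact mul_nonneg (hcoef t ht) (by positivity)
  have h2n : (2 : ℝ) ^ n ≠ 0 := by positivity
  -- total weight one
  have hP0 : ∑ t ∈ T, u t = 1 := by
    have h1 : ∑ x : Fin n → Bool, ∑ t ∈ T, coef t * ind t x = 2 ^ n := by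
      simp_rw [hpart]
      simp
    rw [Finset.sum_comm] at h1
    simp_rw [← Finset.mul_sum] at h1
    have h2 : ∑ t ∈ T, u t = (∑ t ∈ T, coef t * ∑ x : Fin n → Bool, ind t x) / 2 ^ n := by
      rw [Finset.sum_div]
      apply Finset.sum_congr rfl
      intro t _
      simp only [hu]
      rw [mul_div_assoc, E_ind]
    rw [h2, h1, div_self h2n]
  -- level two
  have hP2 : ∀ i j : Fin n, i ≠ j →
      ∑ t ∈ T, u t * (if i ∈ t.1 ∧ j ∈ t.1 then sg (t.2 i) * sg (t.2 j) else 0) = 0 := by
    intro i j hij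
    have h0 : ∑ x : Fin n → Bool, sg (x i) * sg (x j) = 0 := by
      have := sum_ind_sg2 ((∅ : Finset (Fin n)), fun _ => false) i j hij
      simpa [ind] using this
    have h1 : ∑ x : Fin n → Bool, ∑ t ∈ T, coef t * (ind t x * (sg (x i) * sg (x j))) = 0 := by
      have : ∀ x : Fin n → Bool, ∑ t ∈ T, coef t * (ind t x * (sg (x i) * sg (x j)))
          = sg (x i) * sg (x j) := by
        intro x
        have h3 : ∑ t ∈ T, coef t * (ind t x * (sg (x i) * sg (x j)))
            = (∑ t ∈ T, coef t * ind t x) * (sg (x i) * sg (x j)) := by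
          rw [Finset.sum_mul]
          apply Finset.sum_congr rfl
          intro t _
          ring
        rw [h3, hpart x, one_mul]
      simp_rw [this]
      exact h0
    rw [Finset.sum_comm] at h1
    simp_rw [← Finset.mul_sum] at h1
    have h2 : ∑ t ∈ T, u t * (if i ∈ t.1 ∧ j ∈ t.1 then sg (t.2 i) * sg (t.2 j) else 0)
        = (∑ t ∈ T, coef t * ∑ x : Fin n → Bool, ind t x * (sg (x i) * sg (x j))) / 2 ^ n := by
      rw [Finset.sum_div]
      apply Finset.sum_congr rfl
      intro t _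
      simp only [hu]
      rw [mul_div_assoc, E_ind_sg2 t i j hij]
      split_ifs <;> ring
    rw [h2, h1, zero_div]
  -- Fourier coefficients
  have hfour : ∀ j : Fin n, ConicalJuntaBound.fourier f {j}
      = ∑ t ∈ T, u t * (val t * (if j ∈ t.1 then sg (t.2 j) else 0)) := by
    intro j
    unfold ConicalJuntaBound.fourier
    have h1 : ∀ x : Fin n → Bool, f x * chi {j} x
        = ∑ t ∈ T, coef t * val t * (ind t x * sg (x j)) := by
      intro x
      rw [hf x]
      unfold chi
      rw [Finset.prod_singleton, Finset.sum_mul]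
      apply Finset.sum_congr rfl
      intro t _
      ring
    simp_rw [h1]
    rw [Finset.sum_comm]
    simp_rw [← Finset.mul_sum]
    rw [Finset.sum_div]
    apply Finset.sum_congr rfl
    intro t _
    rw [mul_div_assoc, E_ind_sg]
    simp only [hu]
    split_ifs <;> ring
  -- signs
  set σ : Fin n → ℝ := fun j => if 0 ≤ ConicalJuntaBound.fourier f {j} then 1 else -1 with hσ
  have hσ1 : ∀ j, σ j = 1 ∨ σ j = -1 := by
    intro j
    simp only [hσ]
    split_ifs
    · left; rfl
    · right; rfl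
  have hσσ : ∀ j, σ j * σ j = 1 := by
    intro j
    rcases hσ1 j with h | h <;> rw [h] <;> norm_num
  have habs : ∀ j, |ConicalJuntaBound.fourier f {j}| = σ j * ConicalJuntaBound.fourier f {j} := by
    intro j
    simp only [hσ]
    split_ifs with h
    · rw [abs_of_nonneg h, one_mul]
    · push Not at h
      rw [abs_of_neg h]; ring
  -- the signed sums over the fixed coordinates of a cell
  set Z : Finset (Fin n) × (Fin n → Bool) → ℝ :=
    fun t => ∑ j, (if j ∈ t.1 then σ j * sg (t.2 j) else 0) with hZ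
  have hL : ∑ j, |ConicalJuntaBound.fourier f {j}| = ∑ t ∈ T, u t * (val t * Z t) := by
    simp_rw [habs, hfour, Finset.mul_sum]
    rw [Finset.sum_comm]
    apply Finset.sum_congr rfl
    intro t _
    simp only [hZ]
    rw [Finset.mul_sum, Finset.mul_sum]
    apply Finset.sum_congr rfl
    intro j _
    split_ifs <;> ring
  have hLle : ∑ j, |ConicalJuntaBound.fourier f {j}| ≤ ∑ t ∈ T, u t * |Z t| := by
    rw [hL]
    apply Finset.sum_le_sum
    intro t ht
    apply mul_le_mul_of_nonneg_left _ (hu0 t ht)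
    calc val t * Z t ≤ |val t * Z t| := le_abs_self _
      _ = |val t| * |Z t| := abs_mul _ _
      _ ≤ 1 * |Z t| := mul_le_mul_of_nonneg_right (hval t ht) (abs_nonneg _)
      _ = |Z t| := one_mul _
  -- second moment
  have hZ2 : ∑ t ∈ T, u t * (Z t * Z t) = ∑ t ∈ T, coef t * ((t.1.card : ℝ) / 2 ^ t.1.card) := by
    have h1 : ∀ t, Z t * Z t = ∑ i, ∑ j, σ i * σ j *
        (if i ∈ t.1 ∧ j ∈ t.1 then sg (t.2 i) * sg (t.2 j) else 0) := by
      intro t
      simp only [hZ]
      rw [Finset.sum_mul_sum]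
      apply Finset.sum_congr rfl
      intro i _
      apply Finset.sum_congr rfl
      intro j _
      by_cases hi : i ∈ t.1 <;> by_cases hj : j ∈ t.1 <;> simp [hi, hj] <;> ring
    simp_rw [h1, Finset.mul_sum]
    rw [Finset.sum_comm]
    have h2 : ∀ i : Fin n, ∑ t ∈ T, ∑ j, u t * (σ i * σ j *
        (if i ∈ t.1 ∧ j ∈ t.1 then sg (t.2 i) * sg (t.2 j) else 0))
        = ∑ t ∈ T, u t * (if i ∈ t.1 then 1 else 0) := by
      intro i
      rw [Finset.sum_comm]
      rw [Finset.sum_eq_single i]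
      · apply Finset.sum_congr rfl
        intro t _
        by_cases hi : i ∈ t.1
        · simp only [hi, and_self, if_true]
          rw [hσσ, sg_sq]; ring
        · simp [hi]
      · intro j _ hji
        have h3 := hP2 i j (Ne.symm hji)
        have h4 : ∑ t ∈ T, u t * (σ i * σ j *
            (if i ∈ t.1 ∧ j ∈ t.1 then sg (t.2 i) * sg (t.2 j) else 0))
            = σ i * σ j * ∑ t ∈ T, u t * (if i ∈ t.1 ∧ j ∈ t.1 then sg (t.2 i) * sg (t.2 j) else 0) := by
          rw [Finset.mul_sum]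
          apply Finset.sum_congr rfl
          intro t _
          ring
        rw [h4, h3, mul_zero]
      · intro h; exact absurd (Finset.mem_univ i) h
    simp_rw [h2]
    rw [Finset.sum_comm]
    apply Finset.sum_congr rfl
    intro t _
    rw [← Finset.mul_sum]
    simp only [hu]
    rw [Finset.sum_ite_mem, Finset.univ_inter]
    simp only [Finset.sum_const, nsmul_eq_mul, mul_one]
    rw [one_div, inv_pow]
    ring
  -- Cauchy-Schwarz
  set A : ℝ := ∑ t ∈ T, u t * |Z t| with hA
  have hA0 : 0 ≤ A := by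
    rw [hA]
    apply Finset.sum_nonneg
    intro t ht
    exact mul_nonneg (hu0 t ht) (abs_nonneg _)
  have hCS : A * A ≤ ∑ t ∈ T, u t * (Z t * Z t) := by
    have h1 : 0 ≤ ∑ t ∈ T, u t * ((|Z t| - A) * (|Z t| - A)) := by
      apply Finset.sum_nonneg
      intro t ht
      exact mul_nonneg (hu0 t ht) (mul_self_nonneg _)
    have h2 : ∑ t ∈ T, u t * ((|Z t| - A) * (|Z t| - A))
        = ∑ t ∈ T, (u t * (Z t * Z t) - 2 * A * (u t * |Z t|) + A * A * u t) := by
      apply Finset.sum_congr rfl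
      intro t _
      have : |Z t| * |Z t| = Z t * Z t := abs_mul_abs_self _
      linear_combination (u t) * this
    rw [h2, Finset.sum_add_distrib, Finset.sum_sub_distrib, ← Finset.mul_sum, ← Finset.mul_sum,
      hP0, ← hA] at h1
    nlinarith
  have hmain : ∑ i, |ConicalJuntaBound.fourier f {i}|
      ≤ Real.sqrt (∑ t ∈ T, coef t * ((t.1.card : ℝ) / 2 ^ t.1.card)) := by
    rw [← hZ2]
    have h0 : 0 ≤ ∑ j, |ConicalJuntaBound.fourier f {j}| := Finset.sum_nonneg (fun j _ => abs_nonneg _)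
    apply Real.le_sqrt_of_sq_le
    have : (∑ j, |ConicalJuntaBound.fourier f {j}|) ^ 2 ≤ A ^ 2 := by
      apply pow_le_pow_left₀ h0 hLle
    calc (∑ j, |ConicalJuntaBound.fourier f {j}|) ^ 2 ≤ A ^ 2 := this
      _ = A * A := sq A
      _ ≤ _ := hCS
  refine ⟨hmain, ?_⟩
  intro w hwid
  refine le_trans hmain (Real.sqrt_le_sqrt ?_)
  calc ∑ t ∈ T, coef t * ((t.1.card : ℝ) / 2 ^ t.1.card)
      ≤ ∑ t ∈ T, u t * (w : ℝ) := by
        apply Finset.sum_le_sum
        intro t ht
        simp only [hu]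
        have hc : (t.1.card : ℝ) ≤ w := by exact_mod_cast hwid t ht
        have hpos : (0 : ℝ) ≤ (1 / 2) ^ t.1.card := by positivity
        have : coef t * ((t.1.card : ℝ) / 2 ^ t.1.card) = coef t * (1 / 2) ^ t.1.card * (t.1.card : ℝ) := by
          rw [one_div, inv_pow]; ring
        rw [this]
        exact mul_le_mul_of_nonneg_left hc (mul_nonneg (hcoef t ht) hpos)
    _ = (w : ℝ) := by rw [← Finset.sum_mul, hP0, one_mul]

end Vale.Agent.Results.P047.SubcubePartitionBound
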