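import Mathlib
import Vale.Agent.Lib.ConicalJuntaBound
import Vale.Agent.Lib.SubcubePartitionBound

namespace Vale.Agent.Results.P047.SubcubePartitionSharp

open Finset Polynomial
open Vale.Agent.Results.P047.ConicalJuntaBound
open Vale.Agent.Results.P047.SubcubePartitionBound

variable {n : ℕ}

/-- The functional `P ↦ ∑_{k ≤ w} coeff_k(P) |2k - w|`. -/
noncomputable def lam (w : ℕ) (P : ℝ[X]) : ℝ :=
  ∑ k ∈ range (w + 1), P.coeff k * |2 * (k : ℝ) - w|

lemma sum_coeff_mul (w : ℕ) (P : ℝ[X]) (hP : P.natDegree ≤ w) :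
    ∑ k ∈ range (w + 1), P.coeff k * (k : ℝ) = (derivative P).eval 1 := by
  have hd : (derivative P).natDegree < w + 1 :=
    lt_of_le_of_lt (natDegree_derivative_le P) (by omega)
  rw [eval_eq_sum_range' hd, Finset.sum_range_succ', Finset.sum_range_succ]
  have h0 : P.coeff (w + 1) = 0 := coeff_eq_zero_of_natDegree_lt (by omega)
  simp only [coeff_derivative, one_pow, mul_one, h0, zero_mul, add_zero, Nat.cast_zero, mul_zero]
  apply Finset.sum_congr rfl
  intro k _
  push_cast
  ring

lemma sum_coeff (w : ℕ) (P : ℝ[X]) (hP : P.natDegree ≤ w) :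
    ∑ k ∈ range (w + 1), P.coeff k = P.eval 1 := by
  rw [eval_eq_sum_range' (Nat.lt_succ_of_le hP)]
  simp

/-- The Jensen step for the polynomial `X^a (1+X)^m`. -/
lemma lam_cell (w a b m : ℕ) (hw : a + b + m = w) :
    (2 : ℝ) ^ m * |(a : ℝ) - b| ≤ lam w (X ^ a * (1 + X) ^ m) := by
  set P : ℝ[X] := X ^ a * (1 + X) ^ m with hP
  have hdeg : P.natDegree ≤ w := by
    have h1 : P.natDegree ≤ (X ^ a : ℝ[X]).natDegree + ((1 + X) ^ m : ℝ[X]).natDegree :=
      natDegree_mul_le
    have h2 : (X ^ a : ℝ[X]).natDegree ≤ a := by simp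
    have h3 : ((1 + X) ^ m : ℝ[X]).natDegree ≤ m := by
      refine natDegree_pow_le.trans ?_
      have : (1 + X : ℝ[X]).natDegree ≤ 1 := by
        rw [add_comm]; exact (natDegree_X_add_C (1 : ℝ)).le
      calc m * (1 + X : ℝ[X]).natDegree ≤ m * 1 := Nat.mul_le_mul_left m this
        _ = m := mul_one m
    omega
  have hcoef : ∀ k, 0 ≤ P.coeff k := by
    intro k
    rw [hP, coeff_X_pow_mul', coeff_one_add_X_pow]
    split_ifs
    · positivity
    · exact le_refl _
  have heval : P.eval 1 = 2 ^ m := by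
    simp [hP]
    try norm_num
  have hder : (derivative P).eval 1 = a * 2 ^ m + m * 2 ^ (m - 1) := by
    simp [hP, derivative_mul, derivative_pow]
    norm_num
  have hsum : ∑ k ∈ range (w + 1), P.coeff k * (2 * (k : ℝ) - w) = 2 ^ m * ((a : ℝ) - b) := by
    have h1 : ∑ k ∈ range (w + 1), P.coeff k * (2 * (k : ℝ) - w)
        = 2 * ∑ k ∈ range (w + 1), P.coeff k * (k : ℝ) - w * ∑ k ∈ range (w + 1), P.coeff k := by
      rw [Finset.mul_sum, Finset.mul_sum, ← Finset.sum_sub_distrib]
      apply Finset.sum_congr rfl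
      intro k _
      ring
    rw [h1, sum_coeff_mul w P hdeg, sum_coeff w P hdeg, heval, hder]
    have hwc : (w : ℝ) = a + b + m := by rw [← hw]; push_cast; ring
    rw [hwc]
    rcases Nat.eq_zero_or_pos m with hm | hm
    · subst hm; simp; ring
    · obtain ⟨m', rfl⟩ : ∃ m', m = m' + 1 := ⟨m - 1, by omega⟩
      simp only [Nat.add_sub_cancel, pow_succ]
      push_cast
      ring
  calc (2 : ℝ) ^ m * |(a : ℝ) - b| = |2 ^ m * ((a : ℝ) - b)| := by
        rw [abs_mul, abs_of_pos (by positivity : (0 : ℝ) < 2 ^ m)]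
    _ = |∑ k ∈ range (w + 1), P.coeff k * (2 * (k : ℝ) - w)| := by rw [hsum]
    _ ≤ ∑ k ∈ range (w + 1), |P.coeff k * (2 * (k : ℝ) - w)| := Finset.abs_sum_le_sum_abs _ _
    _ = lam w P := by
        unfold lam
        apply Finset.sum_congr rfl
        intro k _
        rw [abs_mul, abs_of_nonneg (hcoef k)]

/-- **Sharp level-one inequality for subcube partitions.** -/
theorem result (n w : ℕ) (f : (Fin n → Bool) → ℝ)
    (T : Finset (Finset (Fin n) × (Fin n → Bool)))
    (coef val : Finset (Fin n) × (Fin n → Bool) → ℝ)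
    (hcoef : ∀ t ∈ T, 0 ≤ coef t) (hval : ∀ t ∈ T, |val t| ≤ 1)
    (hpart : ∀ x, ∑ t ∈ T, coef t * ind t x = 1)
    (hf : ∀ x, f x = ∑ t ∈ T, coef t * val t * ind t x)
    (hw : ∀ t ∈ T, t.1.card ≤ w) :
    ∑ i, |ConicalJuntaBound.fourier f {i}|
      ≤ (∑ k ∈ range (w + 1), (w.choose k : ℝ) * |2 * (k : ℝ) - w|) / 2 ^ w := by
  classical
  set u : Finset (Fin n) × (Fin n → Bool) → ℝ := fun t => coef t * (1 / 2) ^ t.1.card with hu
  have hu0 : ∀ t ∈ T, 0 ≤ u t := by
    intro t ht
    simp only [hu]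
    exact mul_nonneg (hcoef t ht) (by positivity)
  have h2n : (2 : ℝ) ^ n ≠ 0 := by positivity
  -- Fourier coefficients
  have hfour : ∀ j : Fin n, ConicalJuntaBound.fourier f {j}
      = ∑ t ∈ T, u t * (val t * (if j ∈ t.1 then sg (t.2 j) else 0)) := by
    intro j
    unfold ConicalJuntaBound.fourier
    have h1 : ∀ x : Fin n → Bool, f x * chi {j} x
        = ∑ t ∈ T, coef t * val t * (ind t x * sg (x j)) := by
      intro x
      rw [hf x]
      unfold chi
      rw [Finset.prod_singleton, Finset.sum_mul]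
      apply Finset.sum_congr rfl
      intro t _
      ring
    simp_rw [h1]
    rw [Finset.sum_comm]
    simp_rw [← Finset.mul_sum]
    rw [Finset.sum_div]
    apply Finset.sum_congr rfl
    intro t _
    rw [mul_div_assoc, E_ind_sg]
    simp only [hu]
    split_ifs <;> ring
  -- signs
  set σ : Fin n → ℝ := fun j => if 0 ≤ ConicalJuntaBound.fourier f {j} then 1 else -1 with hσ
  have hσ1 : ∀ j, σ j = 1 ∨ σ j = -1 := by
    intro j
    simp only [hσ]
    split_ifs
    · left; rfl
    · right; rfl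
  have habs : ∀ j, |ConicalJuntaBound.fourier f {j}| = σ j * ConicalJuntaBound.fourier f {j} := by
    intro j
    simp only [hσ]
    split_ifs with h
    · rw [abs_of_nonneg h, one_mul]
    · push Not at h
      rw [abs_of_neg h]; ring
  set Z : Finset (Fin n) × (Fin n → Bool) → ℝ :=
    fun t => ∑ j, (if j ∈ t.1 then σ j * sg (t.2 j) else 0) with hZ
  have hL : ∑ j, |ConicalJuntaBound.fourier f {j}| = ∑ t ∈ T, u t * (val t * Z t) := by
    simp_rw [habs, hfour, Finset.mul_sum]
    rw [Finset.sum_comm]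
    apply Finset.sum_congr rfl
    intro t _
    simp only [hZ]
    rw [Finset.mul_sum, Finset.mul_sum]
    apply Finset.sum_congr rfl
    intro j _
    split_ifs <;> ring
  have hLle : ∑ j, |ConicalJuntaBound.fourier f {j}| ≤ ∑ t ∈ T, u t * |Z t| := by
    rw [hL]
    apply Finset.sum_le_sum
    intro t ht
    apply mul_le_mul_of_nonneg_left _ (hu0 t ht)
    calc val t * Z t ≤ |val t * Z t| := le_abs_self _
      _ = |val t| * |Z t| := abs_mul _ _
      _ ≤ 1 * |Z t| := mul_le_mul_of_nonneg_right (hval t ht) (abs_nonneg _)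
      _ = |Z t| := one_mul _
  -- the numbers of fixed coordinates of the two signs
  set aN : Finset (Fin n) × (Fin n → Bool) → ℕ :=
    fun t => (t.1.filter (fun i => σ i * sg (t.2 i) = 1)).card with haN
  set bN : Finset (Fin n) × (Fin n → Bool) → ℕ :=
    fun t => (t.1.filter (fun i => ¬ σ i * sg (t.2 i) = 1)).card with hbN
  have hab : ∀ t, aN t + bN t = t.1.card := fun t =>
    Finset.card_filter_add_card_filter_not (s := t.1) (fun i => σ i * sg (t.2 i) = 1)
  have hneg : ∀ (t : Finset (Fin n) × (Fin n → Bool)) (i : Fin n),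
      ¬ σ i * sg (t.2 i) = 1 → σ i * sg (t.2 i) = -1 := by
    intro t i hne
    have hs : sg (t.2 i) * sg (t.2 i) = 1 := sg_sq _
    have hs2 : σ i * σ i = 1 := by
      rcases hσ1 i with h1 | h1 <;> rw [h1] <;> norm_num
    have hprod : (σ i * sg (t.2 i) - 1) * (σ i * sg (t.2 i) + 1) = 0 := by
      have : (σ i * sg (t.2 i)) * (σ i * sg (t.2 i)) = 1 := by
        calc (σ i * sg (t.2 i)) * (σ i * sg (t.2 i))
            = (σ i * σ i) * (sg (t.2 i) * sg (t.2 i)) := by ring
          _ = 1 := by rw [hs, hs2, mul_one]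
      linear_combination this
    rcases mul_eq_zero.mp hprod with h | h
    · exact absurd (by linarith) hne
    · linarith
  have hZab : ∀ t, Z t = (aN t : ℝ) - bN t := by
    intro t
    simp only [hZ]
    rw [Finset.sum_ite_mem, Finset.univ_inter,
      ← Finset.sum_filter_add_sum_filter_not t.1 (fun i => σ i * sg (t.2 i) = 1)]
    have h1 : ∑ i ∈ t.1.filter (fun i => σ i * sg (t.2 i) = 1), σ i * sg (t.2 i) = aN t := by
      rw [Finset.sum_congr rfl (fun i hi => (Finset.mem_filter.mp hi).2)]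
      simp [haN]
    have h2 : ∑ i ∈ t.1.filter (fun i => ¬ σ i * sg (t.2 i) = 1), σ i * sg (t.2 i)
        = -(bN t : ℝ) := by
      rw [Finset.sum_congr rfl (fun i hi => hneg t i (Finset.mem_filter.mp hi).2)]
      simp [hbN]
    rw [h1, h2]; ring
  -- the biased identity
  have hbias : ∀ e : ℝ, ∑ t ∈ T, coef t * (((1 + e) / 2) ^ aN t * ((1 - e) / 2) ^ bN t) = 1 := by
    intro e
    have h1 : ∑ x : Fin n → Bool, (∏ i, ((1 + e * σ i * sg (x i)) / 2))
        * ∑ t ∈ T, coef t * ind t x = 1 := by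
      simp_rw [hpart, mul_one]
      exact sum_nu e σ
    simp_rw [Finset.mul_sum] at h1
    rw [Finset.sum_comm] at h1
    have h3 : ∀ t ∈ T, coef t * (((1 + e) / 2) ^ aN t * ((1 - e) / 2) ^ bN t)
        = ∑ x : Fin n → Bool, (∏ i, ((1 + e * σ i * sg (x i)) / 2)) * (coef t * ind t x) := by
      intro t _
      have h2 : ∑ x : Fin n → Bool, (∏ i, ((1 + e * σ i * sg (x i)) / 2)) * (coef t * ind t x)
          = coef t * ∑ x : Fin n → Bool, (∏ i, ((1 + e * σ i * sg (x i)) / 2)) * ind t x := by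
        rw [Finset.mul_sum]
        apply Finset.sum_congr rfl
        intro x _
        ring
      rw [h2, sum_nu_ind]
      congr 1
      rw [← Finset.prod_filter_mul_prod_filter_not t.1 (fun i => σ i * sg (t.2 i) = 1)]
      have hA : ∏ i ∈ t.1.filter (fun i => σ i * sg (t.2 i) = 1), ((1 + e * σ i * sg (t.2 i)) / 2)
          = ((1 + e) / 2) ^ aN t := by
        have : ∀ i ∈ t.1.filter (fun i => σ i * sg (t.2 i) = 1),
            (1 + e * σ i * sg (t.2 i)) / 2 = (1 + e) / 2 := by
          intro i hi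
          rw [mul_assoc, (Finset.mem_filter.mp hi).2, mul_one]
        rw [Finset.prod_congr rfl this, Finset.prod_const]
      have hB : ∏ i ∈ t.1.filter (fun i => ¬ σ i * sg (t.2 i) = 1), ((1 + e * σ i * sg (t.2 i)) / 2)
          = ((1 - e) / 2) ^ bN t := by
        have : ∀ i ∈ t.1.filter (fun i => ¬ σ i * sg (t.2 i) = 1),
            (1 + e * σ i * sg (t.2 i)) / 2 = (1 - e) / 2 := by
          intro i hi
          rw [mul_assoc, hneg t i (Finset.mem_filter.mp hi).2]
          ring
        rw [Finset.prod_congr rfl this, Finset.prod_const]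
      rw [hA, hB]
    rw [Finset.sum_congr rfl h3]
    exact h1
  -- the polynomial identity
  have hpoly : ∑ t ∈ T, C (coef t) * (X ^ aN t * (1 + X) ^ (w - t.1.card)) = (1 + X : ℝ[X]) ^ w := by
    rw [← sub_eq_zero]
    apply eq_zero_of_infinite_isRoot
    apply Set.Infinite.mono _ (Set.Ici_infinite (0 : ℝ))
    intro s hs
    have hs0 : (0 : ℝ) ≤ s := hs
    have hs1 : (1 + s) ≠ 0 := by positivity
    show IsRoot _ s
    rw [IsRoot, eval_sub, eval_finsetSum, sub_eq_zero]
    simp only [eval_mul, eval_C, eval_pow, eval_X, eval_add, eval_one]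
    have hb := hbias ((s - 1) / (s + 1))
    have e1 : (1 + (s - 1) / (s + 1)) / 2 = s / (1 + s) := by field_simp; ring
    have e2 : (1 - (s - 1) / (s + 1)) / 2 = 1 / (1 + s) := by field_simp; ring
    rw [e1, e2] at hb
    have hmul : (∑ t ∈ T, coef t * ((s / (1 + s)) ^ aN t * (1 / (1 + s)) ^ bN t)) * (1 + s) ^ w
        = (1 + s) ^ w := by rw [hb, one_mul]
    rw [← hmul, Finset.sum_mul]
    apply Finset.sum_congr rfl
    intro t ht
    have hwt : w = (aN t + bN t) + (w - t.1.card) := by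
      have := hw t ht
      have := hab t
      omega
    have hpw : (1 + s) ^ w = (1 + s) ^ aN t * (1 + s) ^ bN t * (1 + s) ^ (w - t.1.card) := by
      rw [← pow_add, ← pow_add, ← hwt]
    rw [hpw, div_pow, div_pow, one_pow]
    field_simp
  -- apply the functional
  have hlin : ∑ t ∈ T, coef t * lam w (X ^ aN t * (1 + X) ^ (w - t.1.card))
      = ∑ k ∈ range (w + 1), (w.choose k : ℝ) * |2 * (k : ℝ) - w| := by
    have h1 : lam w ((1 + X : ℝ[X]) ^ w)
        = ∑ k ∈ range (w + 1), (w.choose k : ℝ) * |2 * (k : ℝ) - w| := by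
      unfold lam
      apply Finset.sum_congr rfl
      intro k _
      rw [coeff_one_add_X_pow]
    rw [← h1, ← hpoly]
    unfold lam
    simp only [finsetSum_coeff, coeff_C_mul, Finset.sum_mul, Finset.mul_sum]
    rw [Finset.sum_comm]
    apply Finset.sum_congr rfl
    intro k _
    apply Finset.sum_congr rfl
    intro t _
    ring
  have hcell : ∀ t ∈ T, (2 : ℝ) ^ (w - t.1.card) * |Z t|
      ≤ lam w (X ^ aN t * (1 + X) ^ (w - t.1.card)) := by
    intro t ht
    rw [hZab]
    apply lam_cell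
    have := hw t ht
    have := hab t
    omega
  have hfinal : ∑ t ∈ T, u t * |Z t|
      ≤ (∑ k ∈ range (w + 1), (w.choose k : ℝ) * |2 * (k : ℝ) - w|) / 2 ^ w := by
    rw [← hlin, Finset.sum_div]
    apply Finset.sum_le_sum
    intro t ht
    have h1 := mul_le_mul_of_nonneg_left (hcell t ht) (hcoef t ht)
    have h2 : u t * |Z t| = coef t * ((2 : ℝ) ^ (w - t.1.card) * |Z t|) / 2 ^ w := by
      simp only [hu]
      have hpw : (2 : ℝ) ^ w = 2 ^ t.1.card * 2 ^ (w - t.1.card) := by
        rw [← pow_add, Nat.add_sub_cancel' (hw t ht)]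
      rw [hpw, one_div, inv_pow]
      field_simp
    rw [h2]
    exact div_le_div_of_nonneg_right h1 (by positivity)
  exact hLle.trans hfinal

end Vale.Agent.Results.P047.SubcubePartitionSharp
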